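import Vale.Agent.P092.H213.Nd.Pad
import Vale.Agent.P092.H144.Nd.Cl
import Vale.Agent.P092.H541.Nd.Real
import Vale.Agent.P092.H736.NdQ
import Vale.Agent.P092.H35.Rp.Trans
import Vale.Agent.P092.H35.Rp.ClsQ
import Vale.Agent.P092.UN.ClsL
import Mathlib.Analysis.Complex.Basic

/-!
P092, project ND (helper213): closed nondiscrete subgroups of finite covolume of a group of
automorphisms of a simple Lie algebra over a local field of characteristic zero are open.
-/

set_option linter.all false

open Filter Topology Set Metric Module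

namespace Vale.Agent.P092.H213.Nd

open Vale.Agent.P092.H35.Rp (IsLie IsPad)

theorem nd_real {G : Type} [Group G] [TopologicalSpace G] (h : IsLie ℝ G) : ND G := by
  obtain ⟨L, i1, i2, n, b, ρ, hr⟩ := H35.Rp.isLie_ra h
  haveI : Module.Finite ℝ L := Module.Finite.of_basis b
  have hr' : H720.Rp.RA b ρ := ⟨hr.simple, hr.iso, hr.emb, hr.lie, hr.full⟩
  exact H144.Nd.nd_of' hr' fun he H hc hd => H541.Nd.exists_crv_real b ρ he hr.simple hr.lie H hc hd

theorem nd_cplx {G : Type} [Group G] [TopologicalSpace G] (h : IsLie ℂ G) : ND G :=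
  nd_real (isLie_restrict (K := ℝ) (k := ℂ) h)

theorem nd_pad {G : Type} [Group G] [TopologicalSpace G] (h : IsPad G) : ND G := by
  obtain ⟨K, j0, j1, j2, j3, hZ, hK⟩ := isPad_qcl h
  obtain ⟨L, i1, i2, n, b, ρ, hr⟩ := H35.Rp.isLie_ra hK
  haveI : Module.Finite K L := Module.Finite.of_basis b
  have hr' : H720.Rp.RA b ρ := ⟨hr.simple, hr.iso, hr.emb, hr.lie, hr.full⟩
  exact H144.Nd.nd_of' hr' fun he H hc hd =>
    H736.Rp.exists_crv_padic hZ b ρ he hr.simple hr.lie H hc hd

/-- **Closed nondiscrete subgroups of finite covolume are open**, for every group of the class. -/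
theorem nd_lieG {G : Type} [Group G] [TopologicalSpace G] (h : UN.IsLieG G) : ND G := by
  obtain ⟨k, i0, hp, hk, hc, hl⟩ := h
  cases hk with
  | real φ hφ =>
    have h1 : Isometry φ := AddMonoidHomClass.isometry_of_norm φ hφ
    have h2 : Isometry φ.symm := AddMonoidHomClass.isometry_of_norm φ.symm fun x => by
      rw [← hφ, RingEquiv.apply_symm_apply]
    exact nd_real (hl.trans φ h1.continuous h2.continuous)
  | cplx φ hφ =>
    have h1 : Isometry φ := AddMonoidHomClass.isometry_of_norm φ hφ
    have h2 : Isometry φ.symm := AddMonoidHomClass.isometry_of_norm φ.symm fun x => by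
      rw [← hφ, RingEquiv.apply_symm_apply]
    exact nd_cplx (hl.trans φ h1.continuous h2.continuous)
  | ultra hu => exact nd_pad ⟨k, i0, hp, hu, hc, hl⟩

end Vale.Agent.P092.H213.Nd
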