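import Vale.Agent.P092.H35.Rp.Cls
import Mathlib.RingTheory.AlgebraTower
import Mathlib.Topology.Algebra.Module.FiniteDimension
import Mathlib.Analysis.Normed.Module.Basic
import Mathlib.Analysis.Normed.Algebra.Basic
import Mathlib.Algebra.Lie.Abelian

/-!
P092, project ND (helper213): restriction of scalars for the class `IsLie`.
-/

set_option linter.all false

open Module Topology

namespace Vale.Agent.P092.H213.Nd

open Vale.Agent.P092.H35.Rp (IsExp IsLie)

section simple

variable {K k L : Type} [Field K] [Field k] [Algebra K k] [LieRing L] [LieAlgebra k L]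
  [LieAlgebra K L] [IsScalarTower K k L]

theorem center_eq (h : LieAlgebra.IsSimple k L) {y : L} (hy : ∀ x : L, ⁅x, y⁆ = 0) : y = 0 := by
  haveI := h
  rcases h.eq_bot_or_eq_top (LieAlgebra.center k L) with h1 | h1
  · have h2 : y ∈ LieAlgebra.center k L := by
      rw [LieModule.mem_maxTrivSubmodule]
      exact hy
    rw [h1] at h2
    exact (LieSubmodule.mem_bot y).1 h2
  · exfalso
    apply h.non_abelian
    refine ⟨fun x z => ?_⟩
    have h2 : z ∈ LieAlgebra.center k L := by rw [h1]; trivial
    rw [LieModule.mem_maxTrivSubmodule] at h2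
    exact h2 x

/-- A simple Lie algebra is simple over every subfield. -/
theorem simple_restrict (K : Type) [Field K] [Algebra K k] [LieAlgebra K L] [IsScalarTower K k L]
    (h : LieAlgebra.IsSimple k L) : LieAlgebra.IsSimple K L where
  eq_bot_or_eq_top I := by
    set S : Set L := {z | ∃ x : L, ∃ y ∈ I, ⁅x, y⁆ = z} with hS
    have hsub : ∀ z ∈ Submodule.span k S, z ∈ I := by
      intro z hz
      have h1 : ∀ c : k, c • z ∈ I := by
        induction hz using Submodule.span_induction with
        | mem z hz =>
          obtain ⟨x, y, hy, rfl⟩ := hz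
          intro c
          rw [← smul_lie]
          exact I.lie_mem hy
        | zero => intro c; rw [smul_zero]; exact I.zero_mem
        | add u v _ _ hu hv => intro c; rw [smul_add]; exact I.add_mem (hu c) (hv c)
        | smul a u _ hu => intro c; rw [smul_smul]; exact hu (c * a)
      have h2 := h1 1
      rwa [one_smul] at h2
    let J : LieIdeal k L :=
      { Submodule.span k S with
        lie_mem := by
          intro u z hz
          have hz' : z ∈ Submodule.span k S := hz
          clear hz
          show ⁅u, z⁆ ∈ Submodule.span k S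
          induction hz' using Submodule.span_induction with
          | mem z hz =>
            obtain ⟨x, y, hy, rfl⟩ := hz
            exact Submodule.subset_span ⟨u, ⁅x, y⁆, I.lie_mem hy, rfl⟩
          | zero => rw [lie_zero]; exact Submodule.zero_mem _
          | add u' v _ _ hu hv => rw [lie_add]; exact Submodule.add_mem _ hu hv
          | smul a u' _ hu => rw [lie_smul]; exact Submodule.smul_mem _ _ hu }
    have hJ : ∀ z, z ∈ J ↔ z ∈ Submodule.span k S := fun z => Iff.rfl
    rcases h.eq_bot_or_eq_top J with h1 | h1
    · left
      rw [LieSubmodule.eq_bot_iff]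
      intro y hy
      refine center_eq (k := k) h fun x => ?_
      have h2 : ⁅x, y⁆ ∈ J := (hJ _).2 (Submodule.subset_span ⟨x, y, hy, rfl⟩)
      rw [h1] at h2
      exact (LieSubmodule.mem_bot _).1 h2
    · right
      rw [eq_top_iff]
      intro z _
      refine hsub z ((hJ z).1 ?_)
      rw [h1]; trivial
  non_abelian := h.non_abelian

theorem isExp_restrict (x : L) (ψ : L → L) : IsExp K x ψ ↔ IsExp k x ψ := by
  have e : ∀ (i : ℕ) (v : L), ((i.factorial : K)⁻¹) • v = ((i.factorial : k)⁻¹) • v := by
    intro i v
    rw [← algebraMap_smul k ((i.factorial : K)⁻¹) v, map_inv₀, map_natCast]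
  unfold IsExp
  simp only [e]

end simple

section top

variable {K k G : Type} [NontriviallyNormedField K] [CompleteSpace K] [NontriviallyNormedField k]
  [NormedAlgebra K k] [FiniteDimensional K k] [Group G] [TopologicalSpace G]

/-- **Restriction of scalars.** -/
theorem isLie_restrict (h : IsLie k G) : IsLie K G := by
  obtain ⟨L, i1, i2, n, b, ρ, hs, ⟨x, hx, ψ, hψ⟩, hl, hf, he⟩ := h
  letI mK : Module K L := Module.compHom L (algebraMap K k)
  haveI : IsScalarTower K k L := ⟨fun q a v => by
    show (q • a) • v = (algebraMap K k q) • (a • v)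
    rw [Algebra.smul_def, mul_smul]⟩
  letI lK : LieAlgebra K L :=
    { mK with
      lie_smul := fun q x y => by
        show ⁅x, (algebraMap K k q) • y⁆ = (algebraMap K k q) • ⁅x, y⁆
        rw [lie_smul] }
  set e := Module.finBasis K k with he'
  set b' : Basis (Fin (finrank K k) × Fin n) K L := e.smulTower b with hb'
  set ρ' : G →* Module.End K L :=
    { toFun := fun g => (ρ g).restrictScalars K
      map_one' := by rw [map_one]; rfl
      map_mul' := fun g h => by rw [map_mul]; rfl } with hρ'
  have hρa : ∀ g (v : L), ρ' g v = ρ g v := fun g v => rfl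
  refine ⟨L, i1, lK, finrank K k * n, b'.reindex finProdFinEquiv, ρ', simple_restrict K hs,
    ⟨x, hx, ψ, (isExp_restrict (K := K) (k := k) x ψ).2 hψ⟩, hl, fun y φ hφ => ?_, ?_⟩
  · exact hf y φ ((isExp_restrict (K := K) (k := k) y φ).1 hφ)
  · let Ψ : (Fin n → Fin n → k) →ₗ[K]
        (Fin (finrank K k * n) → Fin (finrank K k * n) → K) :=
      { toFun := fun M I J => e.repr (e (finProdFinEquiv.symm J).1 *
          M (finProdFinEquiv.symm I).2 (finProdFinEquiv.symm J).2) (finProdFinEquiv.symm I).1
        map_add' := fun M N => by
          funext I J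
          simp only [Pi.add_apply, mul_add, map_add, Finsupp.add_apply]
        map_smul' := fun c M => by
          funext I J
          simp only [Pi.smul_apply, RingHom.id_apply, mul_smul_comm, map_smul,
            Finsupp.smul_apply] }
    have hker : LinearMap.ker Ψ = ⊥ := by
      rw [LinearMap.ker_eq_bot']
      intro M hM
      funext i j
      rw [Pi.zero_apply, Pi.zero_apply]
      have h1 : ∀ a c, e.repr (e c * M i j) a = 0 := by
        intro a c
        have := congrFun (congrFun hM (finProdFinEquiv (a, i))) (finProdFinEquiv (c, j))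
        simp only [Ψ, LinearMap.coe_mk, AddHom.coe_mk, Equiv.symm_apply_apply,
          Pi.zero_apply] at this
        exact this
      have h2 : ∀ c, e c * M i j = 0 := fun c => by
        apply e.repr.injective
        rw [map_zero]
        exact Finsupp.ext fun a => h1 a c
      by_contra hne
      have h3 : ∀ c, e c = 0 := fun c => (mul_eq_zero.1 (h2 c)).resolve_right hne
      have hpos : 0 < finrank K k := finrank_pos
      exact e.ne_zero ⟨0, hpos⟩ (h3 _)
    have hΨ : IsClosedEmbedding Ψ := LinearMap.isClosedEmbedding_of_injective hker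
    have h1 := hΨ.isEmbedding.comp he
    have e1 : (fun g (I J : Fin (finrank K k * n)) =>
        (b'.reindex finProdFinEquiv).repr (ρ' g ((b'.reindex finProdFinEquiv) J)) I) =
        ⇑Ψ ∘ fun g (i j : Fin n) => b.repr (ρ g (b j)) i := by
      funext g I J
      rw [Basis.repr_reindex_apply, Basis.reindex_apply, hb', Basis.smulTower_apply,
        Basis.smulTower_repr, hρa]
      show _ = e.repr (e (finProdFinEquiv.symm J).1 *
        (b.repr (ρ g (b (finProdFinEquiv.symm J).2)) (finProdFinEquiv.symm I).2)) _
      rw [map_smul, map_smul, Finsupp.smul_apply, smul_eq_mul]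
    rw [e1]
    exact h1

end top

end Vale.Agent.P092.H213.Nd
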