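import Mathlib.Dynamics.Ergodic.Conservative
import Mathlib.MeasureTheory.Constructions.BorelSpace.Basic
import Mathlib.Topology.Algebra.Group.Quotient
import Mathlib.Topology.Algebra.ConstMulAction
import Mathlib.LinearAlgebra.Dual.Lemmas
import Mathlib.Analysis.Normed.Field.Basic
import Mathlib.Analysis.SpecificLimits.Normed
import Mathlib.MeasureTheory.Measure.AEMeasurable

/-!
P092, project ND (helper213): Borel density for subspaces. A subspace which is stable under a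
subgroup of finite covolume is stable under all conjugates of a diagonalizable element.
-/

set_option linter.all false

open Filter Topology MeasureTheory Set

namespace Vale.Agent.P092.H213.Nd

/-- `G ⧸ H` has a nonzero finite invariant measure -/
def Cov {G : Type} [Group G] [TopologicalSpace G] (H : Subgroup G) : Prop :=
  ∃ ν : @Measure (G ⧸ H) (borel _), ν ≠ 0 ∧ ν Set.univ < ⊤ ∧ ∀ g : G, ∀ s : Set (G ⧸ H),
    MeasurableSet[borel (G ⧸ H)] s → ν ((fun x => g • x) ⁻¹' s) = ν s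

/-- Closed nondiscrete subgroups of finite covolume are open. -/
def ND (G : Type) [Group G] [TopologicalSpace G] : Prop :=
  ∀ H : Subgroup G, IsClosed (H : Set G) → Cov H → ¬ DiscreteTopology H → IsOpen (H : Set G)

section meas

variable {G : Type} [Group G] [TopologicalSpace G] [IsTopologicalGroup G]
  [SecondCountableTopology G]

/-- Invariant measures of quotients charge the open sets. -/
theorem open_pos {Γ : Subgroup G} (ν : @Measure (G ⧸ Γ) (borel (G ⧸ Γ))) (h0 : ν ≠ 0)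
    (hinv : ∀ g : G, ∀ s : Set (G ⧸ Γ), MeasurableSet[borel (G ⧸ Γ)] s →
      ν ((fun x => g • x) ⁻¹' s) = ν s) (U : Set (G ⧸ Γ)) (hU : IsOpen U) (hne : U.Nonempty) :
    ν U ≠ 0 := by
  letI : MeasurableSpace (G ⧸ Γ) := borel _
  haveI : BorelSpace (G ⧸ Γ) := ⟨rfl⟩
  intro hz
  apply h0
  rw [← Measure.measure_univ_eq_zero]
  obtain ⟨u, hu⟩ := hne
  haveI : SecondCountableTopology (G ⧸ Γ) := inferInstance
  have hcov : (⋃ g : G, (fun x : G ⧸ Γ => g • x) ⁻¹' U) = univ := by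
    rw [eq_univ_iff_forall]
    intro x
    obtain ⟨x, rfl⟩ := QuotientGroup.mk_surjective x
    obtain ⟨u, rfl⟩ := QuotientGroup.mk_surjective u
    refine mem_iUnion.2 ⟨u * x⁻¹, ?_⟩
    show ((u * x⁻¹ * x : G) : G ⧸ Γ) ∈ U
    rw [inv_mul_cancel_right]
    exact hu
  obtain ⟨T, hT, hTu⟩ := TopologicalSpace.isOpen_iUnion_countable
    (fun g : G => (fun x : G ⧸ Γ => g • x) ⁻¹' U) fun g => hU.preimage (continuous_const_smul g)
  rw [← hcov, ← hTu]
  refine (measure_biUnion_null_iff hT).2 fun g _ => ?_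
  rw [hinv g U hU.measurableSet, hz]

/-- Recurrence, upstairs. -/
theorem recur {H : Subgroup G} (ν : @Measure (G ⧸ H) (borel (G ⧸ H))) (h0 : ν ≠ 0)
    (hfin : ν univ < ⊤) (hinv : ∀ g : G, ∀ s : Set (G ⧸ H), MeasurableSet[borel (G ⧸ H)] s →
      ν ((fun x => g • x) ⁻¹' s) = ν s) (a : G) :
    Dense {g : G | ∀ U ∈ 𝓝 g, ∃ᶠ n in (atTop : Filter ℕ), ∃ h ∈ H, a ^ n * g * h ∈ U} := by
  letI : MeasurableSpace (G ⧸ H) := borel _
  haveI : BorelSpace (G ⧸ H) := ⟨rfl⟩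
  haveI : IsFiniteMeasure ν := ⟨hfin⟩
  have hmp : MeasurePreserving (fun x : G ⧸ H => a • x) ν ν := by
    refine ⟨(continuous_const_smul a).measurable, ?_⟩
    ext s hs
    rw [Measure.map_apply (continuous_const_smul a).measurable hs]
    exact hinv a s hs
  have hae := hmp.conservative.ae_frequently_mem_of_mem_nhds
  rw [dense_iff_inter_open]
  intro O hO hne
  have hO' : IsOpen ((QuotientGroup.mk : G → G ⧸ H) '' O) := QuotientGroup.isOpenMap_coe _ hO
  have hpos := open_pos ν h0 hinv _ hO' (hne.image _)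
  have h1 : ∃ x ∈ (QuotientGroup.mk : G → G ⧸ H) '' O,
      ∀ s ∈ 𝓝 x, ∃ᶠ n in (atTop : Filter ℕ), (fun x : G ⧸ H => a • x)^[n] x ∈ s := by
    by_contra hc
    push Not at hc
    apply hpos
    refine measure_mono_null ?_ hae
    intro x hx
    obtain ⟨s, hs, hs'⟩ := hc x hx
    intro hall
    exact (hall s hs) hs'
  obtain ⟨_, ⟨g, hgO, rfl⟩, hg⟩ := h1
  refine ⟨g, hgO, fun U hU => ?_⟩
  have h2 : (QuotientGroup.mk : G → G ⧸ H) '' U ∈ 𝓝 (g : G ⧸ H) :=
    QuotientGroup.isOpenMap_coe.image_mem_nhds hU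
  refine (hg _ h2).mono fun n hn => ?_
  have h3 : (fun x : G ⧸ H => a • x)^[n] (g : G ⧸ H) = ((a ^ n * g : G) : G ⧸ H) := by
    induction n with
    | zero => simp
    | succ n ih =>
      rw [Function.iterate_succ', Function.comp_apply]
      have ih' : (fun x : G ⧸ H => a • x)^[n] (g : G ⧸ H) = ((a ^ n * g : G) : G ⧸ H) := by
        clear hn ih
        induction n with
        | zero => simp
        | succ n ih =>
          rw [Function.iterate_succ', Function.comp_apply, ih, pow_succ', mul_assoc]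
          rfl
      rw [ih', pow_succ', mul_assoc]
      rfl
  rw [h3] at hn
  obtain ⟨y, hy, hye⟩ := hn
  rw [QuotientGroup.eq] at hye
  refine ⟨(y⁻¹ * (a ^ n * g))⁻¹, H.inv_mem hye, ?_⟩
  have : a ^ n * g * (y⁻¹ * (a ^ n * g))⁻¹ = y := by group
  rw [this]; exact hy

end meas

section lin

variable {K : Type} [NontriviallyNormedField K] {V : Type} [AddCommGroup V] [Module K V]
  {G : Type} [Group G] [TopologicalSpace G] [IsTopologicalGroup G]

theorem mem_of_dual {W : Submodule K V} {v : V}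
    (h : ∀ φ : V →ₗ[K] K, (∀ w ∈ W, φ w = 0) → φ v = 0) : v ∈ W := by
  by_contra hv
  obtain ⟨φ, h1, h2⟩ := Submodule.exists_le_ker_of_notMem hv
  exact h1 (h φ fun w hw => LinearMap.mem_ker.1 (h2 hw))

/-- The top component. -/
theorem top_mem (ρ : G →* Module.End K V)
    (hc : ∀ (φ : V →ₗ[K] K) (v : V), Continuous fun g => φ (ρ g v)) {H : Subgroup G}
    {W : Submodule K V} (hW : ∀ h ∈ H, ∀ w ∈ W, ρ h w ∈ W) {a : G} {t : K} (ht : 1 < ‖t‖)
    {D : ℤ → Submodule K V} (ha : ∀ i, ∀ v ∈ D i, ρ a v = t ^ i • v) {g : G}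
    (hg : ∀ U ∈ 𝓝 g, ∃ᶠ n in (atTop : Filter ℕ), ∃ h ∈ H, a ^ n * g * h ∈ U)
    (S : Finset ℤ) (m : ℤ) (hm : ∀ i ∈ S, i < m) (f : ℤ → V) (hf : ∀ i, f i ∈ D i)
    (hu : ρ g⁻¹ (f m + ∑ i ∈ S, f i) ∈ W) : ρ g⁻¹ (f m) ∈ W := by
  have ht0 : t ≠ 0 := by
    intro h; rw [h, norm_zero] at ht; exact absurd ht (by norm_num)
  refine mem_of_dual fun φ hφ => ?_
  set F : Filter (ℕ × G) := (atTop.comap Prod.fst) ⊓ ((𝓝 g).comap fun p => a ^ p.1 * g * p.2) ⊓
    𝓟 {p | p.2 ∈ H} with hF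
  have hne : F.NeBot := by
    rw [hF, inf_principal_neBot_iff]
    intro T hT
    rw [mem_inf_iff] at hT
    obtain ⟨A, ⟨A', hA', hA⟩, B, ⟨B', hB', hB⟩, rfl⟩ := hT
    obtain ⟨n, ⟨h, hh, hn⟩, hnA⟩ := ((hg B' hB').and_eventually hA').exists
    exact ⟨(n, h), ⟨hA hnA, hB hn⟩, hh⟩
  have hy : Tendsto (fun p : ℕ × G => a ^ p.1 * g * p.2) F (𝓝 g) :=
    tendsto_comap.mono_left (inf_le_left.trans inf_le_right)
  have hn : Tendsto (fun p : ℕ × G => p.1) F atTop :=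
    tendsto_comap.mono_left (inf_le_left.trans inf_le_left)
  have hH : ∀ᶠ p in F, p.2 ∈ H := mem_inf_of_right (mem_principal_self _)
  have hlim : ∀ v : V, Tendsto (fun p : ℕ × G => φ (ρ (a ^ p.1 * g * p.2)⁻¹ v)) F
      (𝓝 (φ (ρ g⁻¹ v))) := by
    intro v
    have h1 : Continuous fun x : G => φ (ρ x⁻¹ v) := (hc φ v).comp continuous_inv
    exact (h1.tendsto g).comp hy
  have hpow : ∀ i ∈ S, Tendsto (fun p : ℕ × G => (t ^ (i - m)) ^ p.1) F (𝓝 0) := by
    intro i hi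
    have h1 : ‖t ^ (i - m)‖ < 1 := by
      rw [norm_zpow]
      exact zpow_lt_one_of_neg₀ ht (by have := hm i hi; omega)
    exact (tendsto_pow_atTop_nhds_zero_of_norm_lt_one h1).comp hn
  have hsum : Tendsto (fun p : ℕ × G => φ (ρ (a ^ p.1 * g * p.2)⁻¹ (f m)) +
      ∑ i ∈ S, (t ^ (i - m)) ^ p.1 * φ (ρ (a ^ p.1 * g * p.2)⁻¹ (f i))) F
      (𝓝 (φ (ρ g⁻¹ (f m)) + ∑ i ∈ S, 0 * φ (ρ g⁻¹ (f i)))) :=
    (hlim (f m)).add (tendsto_finset_sum S fun i hi => (hpow i hi).mul (hlim (f i)))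
  have hz : (fun p : ℕ × G => φ (ρ (a ^ p.1 * g * p.2)⁻¹ (f m)) +
      ∑ i ∈ S, (t ^ (i - m)) ^ p.1 * φ (ρ (a ^ p.1 * g * p.2)⁻¹ (f i))) =ᶠ[F] fun _ => 0 := by
    filter_upwards [hH] with p hp
    have hapow : ∀ i, ρ (a ^ p.1) (f i) = (t ^ i) ^ p.1 • f i := by
      intro i
      generalize p.1 = n
      induction n with
      | zero => simp
      | succ n ih => rw [pow_succ', map_mul, Module.End.mul_apply, ih, map_smul, ha i _ (hf i),
          smul_smul, pow_succ]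
    have e1 : ρ (a ^ p.1 * g * p.2)⁻¹ (ρ (a ^ p.1) (f m + ∑ i ∈ S, f i)) =
        ρ p.2⁻¹ (ρ g⁻¹ (f m + ∑ i ∈ S, f i)) := by
      rw [← Module.End.mul_apply, ← Module.End.mul_apply, ← map_mul, ← map_mul]
      congr 2
      group
    have e2 : φ (ρ (a ^ p.1 * g * p.2)⁻¹ (ρ (a ^ p.1) (f m + ∑ i ∈ S, f i))) = 0 := by
      rw [e1]
      exact hφ _ (hW _ (H.inv_mem hp) _ hu)
    rw [map_add, map_sum, hapow, map_add, map_smul, map_add, map_smul, map_sum] at e2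
    have e3 : (t ^ m) ^ p.1 * (φ (ρ (a ^ p.1 * g * p.2)⁻¹ (f m)) +
        ∑ i ∈ S, (t ^ (i - m)) ^ p.1 * φ (ρ (a ^ p.1 * g * p.2)⁻¹ (f i))) = 0 := by
      rw [mul_add, Finset.mul_sum]
      rw [smul_eq_mul] at e2
      rw [← e2, add_right_inj, map_sum]
      refine Finset.sum_congr rfl fun i _ => ?_
      rw [hapow, map_smul, map_smul, smul_eq_mul, ← mul_assoc, ← mul_pow, ← zpow_add₀ ht0]
      congr 3
      ring
    exact (mul_eq_zero.1 e3).resolve_left (pow_ne_zero _ (zpow_ne_zero _ ht0))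
  have h1 := tendsto_nhds_unique (hsum.congr' hz) tendsto_const_nhds
  simpa using h1

theorem all_mem (ρ : G →* Module.End K V)
    (hc : ∀ (φ : V →ₗ[K] K) (v : V), Continuous fun g => φ (ρ g v)) {H : Subgroup G}
    {W : Submodule K V} (hW : ∀ h ∈ H, ∀ w ∈ W, ρ h w ∈ W) {a : G} {t : K} (ht : 1 < ‖t‖)
    {D : ℤ → Submodule K V} (ha : ∀ i, ∀ v ∈ D i, ρ a v = t ^ i • v) {g : G}
    (hg : ∀ U ∈ 𝓝 g, ∃ᶠ n in (atTop : Filter ℕ), ∃ h ∈ H, a ^ n * g * h ∈ U)
    (f : ℤ → V) (hf : ∀ i, f i ∈ D i) (S : Finset ℤ) :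
    ρ g⁻¹ (∑ i ∈ S, f i) ∈ W → ∀ i ∈ S, ρ g⁻¹ (f i) ∈ W := by
  induction S using Finset.induction_on_max with
  | empty => intro _ i hi; simp at hi
  | insert m S hm ih =>
    intro hu
    have hmS : m ∉ S := fun h => lt_irrefl _ (hm m h)
    rw [Finset.sum_insert hmS] at hu
    have h1 := top_mem ρ hc hW ht ha hg S m hm f hf hu
    have h2 : ρ g⁻¹ (∑ i ∈ S, f i) ∈ W := by
      have h3 := W.sub_mem hu h1
      rwa [map_add, add_sub_cancel_left] at h3
    intro i hi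
    rcases Finset.mem_insert.1 hi with h | h
    · rw [h]; exact h1
    · exact ih h2 i h

/-- **Borel density for subspaces.** -/
theorem bd [SecondCountableTopology G] (ρ : G →* Module.End K V)
    (hc : ∀ (φ : V →ₗ[K] K) (v : V), Continuous fun g => φ (ρ g v)) {H : Subgroup G} (hH : Cov H)
    {W : Submodule K V} (hW : ∀ h ∈ H, ∀ w ∈ W, ρ h w ∈ W) {a : G} {t : K} (ht : 1 < ‖t‖)
    {D : ℤ → Submodule K V} (hD : ⨆ i, D i = ⊤) (ha : ∀ i, ∀ v ∈ D i, ρ a v = t ^ i • v) (g : G) :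
    ∀ w ∈ W, ρ (g⁻¹ * a * g) w ∈ W := by
  obtain ⟨ν, h0, hfin, hinv⟩ := hH
  have hd := recur ν h0 hfin hinv a
  have hcl : IsClosed {g : G | ∀ w ∈ W, ρ (g⁻¹ * a * g) w ∈ W} := by
    have e : {g : G | ∀ w ∈ W, ρ (g⁻¹ * a * g) w ∈ W} =
        ⋂ w : W, ⋂ φ : {φ : V →ₗ[K] K // ∀ w ∈ W, φ w = 0},
          {g : G | φ.1 (ρ (g⁻¹ * a * g) w) = 0} := by
      ext g
      simp only [mem_setOf_eq, mem_iInter]
      constructor
      · intro h w φ
        exact φ.2 _ (h w w.2)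
      · intro h w hw
        exact mem_of_dual fun φ hφ => h ⟨w, hw⟩ ⟨φ, hφ⟩
    rw [e]
    refine isClosed_iInter fun w => isClosed_iInter fun φ => ?_
    refine isClosed_eq ((hc φ.1 w).comp ?_) continuous_const
    exact (continuous_inv.mul continuous_const).mul continuous_id
  have hsub : {g : G | ∀ U ∈ 𝓝 g, ∃ᶠ n in (atTop : Filter ℕ), ∃ h ∈ H, a ^ n * g * h ∈ U} ⊆
      {g : G | ∀ w ∈ W, ρ (g⁻¹ * a * g) w ∈ W} := by
    intro g hg w hw
    have hu : ρ g w ∈ ⨆ i, D i := by rw [hD]; trivial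
    obtain ⟨f, hf, hfs⟩ := (Submodule.mem_iSup_iff_exists_finsupp _ _).1 hu
    have h1 := all_mem ρ hc hW ht ha hg f hf f.support (by
      have e : ∑ i ∈ f.support, f i = ρ g w := hfs
      rw [e, ← Module.End.mul_apply, ← map_mul, inv_mul_cancel, map_one]
      exact hw)
    have e2 : ρ (g⁻¹ * a * g) w = ∑ i ∈ f.support, t ^ i • ρ g⁻¹ (f i) := by
      have e3 : ρ g w = ∑ i ∈ f.support, f i := hfs.symm
      rw [map_mul, map_mul, Module.End.mul_apply, Module.End.mul_apply, e3, map_sum, map_sum]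
      refine Finset.sum_congr rfl fun i _ => ?_
      rw [ha i _ (hf i), map_smul]
    rw [e2]
    exact W.sum_mem fun i hi => W.smul_mem _ (h1 i hi)
  have h2 : g ∈ closure {g : G | ∀ U ∈ 𝓝 g, ∃ᶠ n in (atTop : Filter ℕ), ∃ h ∈ H,
      a ^ n * g * h ∈ U} := hd g
  exact (hcl.closure_subset_iff.2 hsub) h2

end lin

end Vale.Agent.P092.H213.Nd
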