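import Mathlib.Analysis.Normed.Field.Ultra
import Mathlib.Analysis.Normed.Module.FiniteDimension
import Mathlib.Topology.Algebra.Field
import Mathlib.Topology.MetricSpace.Ultra.Basic
import Mathlib.Analysis.Normed.Field.Basic
import Mathlib.RingTheory.Int.Basic

/-!
P092, project ND (helper213): the closure of the rational numbers in a non-archimedean local field
of characteristic zero.
-/

set_option linter.all false

open Filter Topology Set Metric

namespace Vale.Agent.P092.H213.Nd

section dens

variable {k : Type} [NontriviallyNormedField k] [IsUltrametricDist k]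

theorem exists_p [ProperSpace k] [CharZero k] : ∃ p : ℕ, p.Prime ∧ ‖(p : k)‖ < 1 := by
  by_contra h
  push Not at h
  have h1 : ∀ n : ℕ, n ≠ 0 → ‖(n : k)‖ = 1 := by
    intro n
    induction n using Nat.strong_induction_on with
    | _ n ih =>
      intro hn
      by_cases hn1 : n = 1
      · subst hn1; simp
      · obtain ⟨p, hp, w, rfl⟩ := Nat.exists_prime_and_dvd hn1
        have hw : w ≠ 0 := by rintro rfl; simp at hn
        have hlt : w < p * w := by
          have := hp.two_le
          nlinarith [Nat.pos_of_ne_zero hw]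
        push_cast
        rw [norm_mul, ih w hlt hw, mul_one]
        exact le_antisymm (IsUltrametricDist.norm_natCast_le_one k p) (h p hp)
  obtain ⟨a, -, φ, hφ, hlim⟩ := (isCompact_closedBall (0 : k) 1).tendsto_subseq
    (x := fun n : ℕ => (n : k)) (fun n => by
      rw [mem_closedBall_zero_iff]; exact IsUltrametricDist.norm_natCast_le_one k n)
  have hc := hlim.cauchySeq
  rw [Metric.cauchySeq_iff'] at hc
  obtain ⟨N, hN⟩ := hc (1 / 2) (by norm_num)
  have h2 := hN (N + 1) (Nat.le_succ N)
  have h3 : φ N < φ (N + 1) := hφ (Nat.lt_succ_self N)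
  obtain ⟨e, he⟩ := Nat.exists_eq_add_of_lt h3
  have h4 : (((φ (N + 1) : ℕ) : k)) - ((φ N : ℕ) : k) = ((e + 1 : ℕ) : k) := by
    rw [he]; push_cast; ring
  simp only [Function.comp_apply, dist_eq_norm] at h2
  rw [h4, h1 _ (Nat.succ_ne_zero e)] at h2
  norm_num at h2

/-- a quotient of norm at most one is a limit of integers -/
theorem rat_mem {p : ℕ} (hp : p.Prime) (hp1 : ‖(p : k)‖ < 1) {a b : ℤ} (hab : IsCoprime a b)
    (hb : (b : k) ≠ 0) (h1 : ‖(a : k) / b‖ ≤ 1) :
    (a : k) / b ∈ closure (range ((↑) : ℤ → k)) := by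
  obtain ⟨u, v, huv⟩ := hab
  have hbn : ‖(b : k)‖ = 1 := by
    by_contra hne
    have hlt : ‖(b : k)‖ < 1 := lt_of_le_of_ne (IsUltrametricDist.norm_intCast_le_one k b) hne
    have hle : ‖(a : k)‖ ≤ ‖(b : k)‖ := by
      rw [norm_div, div_le_one (norm_pos_iff.2 hb)] at h1
      exact h1
    have h2 : (1 : k) = u * a + v * b := by
      have := congrArg (Int.cast : ℤ → k) huv
      push_cast at this
      exact this.symm
    have h3 : ‖(1 : k)‖ ≤ max ‖(u : k) * a‖ ‖(v : k) * b‖ := by
      rw [h2]; exact IsUltrametricDist.norm_add_le_max _ _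
    rw [norm_one, norm_mul, norm_mul] at h3
    have hu := IsUltrametricDist.norm_intCast_le_one k u
    have hv := IsUltrametricDist.norm_intCast_le_one k v
    rcases le_max_iff.1 h3 with h4 | h4
    · nlinarith [norm_nonneg (a : k), norm_nonneg (u : k)]
    · nlinarith [norm_nonneg (b : k), norm_nonneg (v : k)]
  have hcop : IsCoprime (p : ℤ) b := by
    rw [Int.isCoprime_iff_gcd_eq_one]
    by_contra hne
    have hdvd : (p : ℤ) ∣ b := by
      rcases (Nat.dvd_prime hp).1 (Int.gcd_dvd_natAbs_left (p : ℤ) b) with h | h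
      · exact absurd h hne
      · have := Int.gcd_dvd_right (a := (p : ℤ)) (b := b)
        rw [h] at this
        exact this
    obtain ⟨c, rfl⟩ := hdvd
    push_cast at hbn
    rw [norm_mul] at hbn
    have := IsUltrametricDist.norm_intCast_le_one k c
    nlinarith [norm_nonneg (p : k), norm_nonneg (c : k)]
  rw [mem_closure_iff_nhds_basis Metric.nhds_basis_ball]
  intro ε hε
  obtain ⟨N, hN⟩ : ∃ N : ℕ, ‖(p : k)‖ ^ N < ε := exists_pow_lt_of_lt_one hε hp1
  obtain ⟨x, y, hxy⟩ := hcop.pow_left (m := N)
  refine ⟨((a * y : ℤ) : k), ⟨a * y, rfl⟩, ?_⟩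
  rw [mem_ball, dist_eq_norm]
  have h5 : ((a * y : ℤ) : k) - (a : k) / b = (a : k) * (-(x * p ^ N)) / b := by
    have h6 : (1 : k) = x * p ^ N + y * b := by
      have := congrArg (Int.cast : ℤ → k) hxy
      push_cast at this
      exact this.symm
    field_simp
    push_cast
    linear_combination (-(a : k)) * h6
  rw [h5, norm_div, hbn, div_one, norm_mul, norm_neg, norm_mul, norm_pow]
  have ha := IsUltrametricDist.norm_intCast_le_one k a
  have hx := IsUltrametricDist.norm_intCast_le_one k x
  have hpn : 0 ≤ ‖(p : k)‖ ^ N := by positivity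
  calc ‖(a : k)‖ * (‖(x : k)‖ * ‖(p : k)‖ ^ N) ≤ 1 * (1 * ‖(p : k)‖ ^ N) := by gcongr
    _ < ε := by rw [one_mul, one_mul]; exact hN

theorem mem_int [ProperSpace k] [CharZero k] {t : k} (ht : t ∈ closure (range ((↑) : ℚ → k)))
    (h1 : ‖t‖ ≤ 1) : t ∈ closure (range ((↑) : ℤ → k)) := by
  obtain ⟨p, hp, hp1⟩ := exists_p (k := k)
  rw [← closure_closure, mem_closure_iff_nhds_basis Metric.nhds_basis_ball]
  intro ε hε
  obtain ⟨_, ⟨q, rfl⟩, hq⟩ :=
    (mem_closure_iff_nhds_basis Metric.nhds_basis_ball).1 ht (min ε 1) (lt_min hε one_pos)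
  rw [mem_ball, dist_eq_norm] at hq
  refine ⟨(q : k), ?_, by rw [mem_ball, dist_eq_norm]; exact hq.trans_le (min_le_left _ _)⟩
  have h2 : ‖(q : k)‖ ≤ 1 := by
    have e : (q : k) = ((q : k) - t) + t := by ring
    rw [e]
    refine (IsUltrametricDist.norm_add_le_max _ _).trans (max_le ?_ h1)
    exact (hq.trans_le (min_le_right _ _)).le
  have hqd : (q : k) = (q.num : k) / ((q.den : ℤ) : k) := by
    rw [Rat.cast_def]
    push_cast
    rfl
  rw [hqd] at h2 ⊢
  refine rat_mem hp hp1 ?_ ?_ h2
  · rw [Int.isCoprime_iff_gcd_eq_one]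
    exact q.reduced
  · have := q.den_nz
    exact_mod_cast this

end dens

section qcl

variable (k : Type) [NontriviallyNormedField k] [ProperSpace k] [IsUltrametricDist k] [CharZero k]

/-- **The closure of the rational numbers.** -/
theorem exists_qcl : ∃ (K : Type) (_ : NontriviallyNormedField K) (_ : NormedAlgebra K k),
    ProperSpace K ∧ IsUltrametricDist K ∧ CharZero K ∧ FiniteDimensional K k ∧
      ∀ t : K, ‖t‖ ≤ 1 → t ∈ closure (range ((↑) : ℤ → K)) := by
  obtain ⟨p, hp, hp1⟩ := exists_p (k := k)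
  let S : Subfield k := (algebraMap ℚ k).fieldRange.topologicalClosure
  have hS : IsClosed (S : Set k) := Subfield.isClosed_topologicalClosure _
  have hnorm : ∀ x : S, ‖x‖ = ‖(x : k)‖ := fun x => rfl
  have hp0 : (p : k) ≠ 0 := by exact_mod_cast hp.ne_zero
  letI nn : NontriviallyNormedField S :=
    { SubfieldClass.toNormedField S with
      non_trivial := by
        refine ⟨(p : S)⁻¹, ?_⟩
        rw [hnorm]
        push_cast
        rw [norm_inv]
        exact (one_lt_inv₀ (norm_pos_iff.2 hp0)).2 hp1 }
  letI na : NormedAlgebra S k :=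
    { (inferInstance : Algebra S k) with
      norm_smul_le := fun r x => by
        rw [Algebra.smul_def, norm_mul]
        rfl }
  have hemb : IsClosedEmbedding (Subtype.val : S → k) := hS.isClosedEmbedding_subtypeVal
  haveI hps : ProperSpace S := by
    have hl : LipschitzWith 1 (Subtype.val : S → k) := LipschitzWith.subtype_val _
    exact hl.properSpace hemb.isProperMap
  haveI : CharZero S := ⟨fun a b h => by
    have := congrArg (Subtype.val : S → k) h
    push_cast at this
    exact_mod_cast this⟩
  refine ⟨S, nn, na, hps, inferInstance, inferInstance,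
    FiniteDimensional.of_locallyCompactSpace S, fun t ht => ?_⟩
  rw [hemb.isInducing.closure_eq_preimage_closure_image, mem_preimage]
  have e : (Subtype.val : S → k) '' range ((↑) : ℤ → S) = range ((↑) : ℤ → k) := by
    rw [← range_comp]
    congr 1
  rw [e]
  exact mem_int t.2 ht

end qcl

end Vale.Agent.P092.H213.Nd
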