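import Vale.Agent.P092.H213.Nd.Sc
import Vale.Agent.P092.H213.Nd.Qcl

/-!
P092, project ND (helper213): every group of the class `IsPad` comes from a simple Lie algebra over
the closure of the rational numbers, where the integers are dense in the unit ball.
-/

set_option linter.all false

open Filter Topology Set Metric

namespace Vale.Agent.P092.H213.Nd

open Vale.Agent.P092.H35.Rp (IsLie IsPad)

/-- every element of the unit ball is a limit of integers -/
def ZD (K : Type) [NontriviallyNormedField K] : Prop :=
  ∀ t : K, ‖t‖ ≤ 1 → t ∈ closure (range ((↑) : ℤ → K))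

theorem isPad_qcl {G : Type} [Group G] [TopologicalSpace G] (h : IsPad G) :
    ∃ (K : Type) (_ : NontriviallyNormedField K), ProperSpace K ∧ IsUltrametricDist K ∧
      CharZero K ∧ ZD K ∧ IsLie K G := by
  obtain ⟨k, i0, i1, i2, i3, hk⟩ := h
  obtain ⟨K, j0, j1, j2, j3, j4, j5, j6⟩ := exists_qcl k
  exact ⟨K, j0, j2, j3, j4, j6, isLie_restrict hk⟩

end Vale.Agent.P092.H213.Nd
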